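import Vale.Agent.P287D.Z.Sig
import Vale.Agent.P287D.Gs.Bas

/-!
# P287D: Zariski decompositions from finite generation
-/

set_option linter.all false

open Set Filter Topology
open P277Z.Gor P277Z.Gr

noncomputable section

namespace Vale.Agent.P287D

variable {K : Type} [Field K] [Algebra ℂ K] {ι : Type} [Fintype ι] {D : ι → BD K}
  {T : Set (Pl K)} {H : Finset (ι → ℤ)} {a b z : ι → ℝ} {G : BD K} {P : Pl K}

theorem lc_apply (D : ι → BD K) (a : ι → ℝ) (P : Pl K) : lc D a P = ∑ i, a i * D i P := by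
  simp [lc]

theorem dv_prod_zpow {α : Type} [Fintype α] {f : α → K} (h : ∀ j, f j ≠ 0) (n : α → ℤ) :
    dv (∏ j, f j ^ n j) = ∑ j, (n j : ℝ) • dv (f j) := by
  rw [dv_prod _ fun j _ => zpow_ne_zero _ (h j)]
  simp only [dv_zpow]

/-- the members of the real linear systems are generated by the integral ones -/
theorem Det.ind (h : Det T D) {p : (ι → ℝ) → BD K → Prop} (h0 : p 0 0)
    (h1 : ∀ a G b G', p a G → p b G' → p (a + b) (G + G'))
    (h2 : ∀ a G (c : ℝ), 0 ≤ c → p a G → p (c • a) (c • G))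
    (h3 : ∀ (e : ι → ℕ) (f : K), f ≠ 0 → Sec (lc D fun i => e i) f →
      p (fun i => e i) (dv f + lc D fun i => e i))
    (ha : 0 ≤ a) (hG : Rep (lc D a) G) : p a G := by
  classical
  obtain ⟨S, r, S0, e⟩ := mem_Prn.1 hG.2
  let B : ι ⊕ S → BD K := Sum.elim D fun f => dv (f : K)
  have hB : ∀ x, lc B x = lc D (fun i => x (.inl i)) + ∑ f : S, x (.inr f) • dv (f : K) :=
    fun x => by simp [lc, B]
  have : ∀ (P : T) i, ∃ q : ℚ, B i P = q := by
    rintro P (i | f)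
    exacts [h.rat i P P.2, ⟨P.1.ord f, by simp [B, dv]⟩]
  choose c hc using this
  have fin : {P : T | ∃ i, B i P ≠ 0}.Finite := by
    rw [setOf_exists]
    refine finite_iUnion fun i => Finite.of_finite_image (f := Subtype.val) ?_
      Subtype.val_injective.injOn
    refine Finite.subset (s := {P | P ∈ T ∧ B i P ≠ 0}) ?_ (by rintro _ ⟨P, k, rfl⟩; exact ⟨P.2, k⟩)
    rcases i with i | f
    exacts [h.sup i, h.fin f]
  have := fin.to_subtype
  obtain ⟨s, hs⟩ := exists_cone_ratH (Sum.elim (fun P : {P : T | ∃ i, B i P ≠ 0} => c P)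
    fun i : ι => Pi.single (.inl i) 1)
  have hm : ∀ x, x ∈ cone s ↔ (∀ i, 0 ≤ x (.inl i)) ∧ 0 ≤ lc B x := fun x => by
    have k1 : ∀ P : T, ∑ i, (c P i : ℝ) * x i = lc B x P := fun P => by
      simp only [lc_apply, hc, mul_comm]
    have k2 : ∀ i, ∑ j, ((Pi.single (.inl i) 1 : ι ⊕ S → ℚ) j : ℝ) * x j = x (.inl i) := fun i => by
      rw [Finset.sum_eq_single (.inl i)] <;> simp +contextual [Pi.single_apply]
    simp only [← hs, mem_setOf_eq, Sum.forall, Sum.elim_inl, Sum.elim_inr, k1, k2]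
    refine ⟨fun k => ⟨k.2, ?_⟩, fun k => ⟨fun P => k.2 _, k.1⟩⟩
    rw [hB]
    refine h.pos _ k.2 _ (sum_mem fun f _ => Submodule.smul_mem _ _ (dv_mem_Prn _)) fun P hP => ?_
    rw [← hB]
    by_cases e : ∃ i, B i P ≠ 0
    · exact k.1 ⟨⟨P, hP⟩, e⟩
    · simp only [not_exists, not_not] at e
      simp [lc_apply, e]
  have hG' : lc B (Sum.elim a fun f => r f) = G := by
    rw [hB]
    simp only [Sum.elim_inl, Sum.elim_inr]
    rw [Finset.sum_coe_sort S fun f => r f • dv f, ← e, add_sub_cancel]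
  have := cone_subset (C := {x | p (fun i => x (.inl i)) (lc B x)}) (s := s)
    (by rw [mem_setOf_eq, lc_zero]; exact h0)
    (fun x k y k' => by rw [mem_setOf_eq, lc_add]; exact h1 _ _ _ _ k k')
    (fun x k c hc => by rw [mem_setOf_eq, lc_smul]; exact h2 _ _ c hc k) (fun v hv => ?_)
    ((hm (Sum.elim a fun f => r f)).2 ⟨ha, hG' ▸ hG.1⟩)
  · rwa [mem_setOf_eq, hG'] at this
  obtain ⟨v1, v2⟩ := (hm _).1 (toR_mem_cone hv)
  have q : (fun i => toR v (.inl i)) = fun i => ((v (.inl i)).toNat : ℝ) := funext fun i => by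
    rw [toR_apply, ← Int.cast_natCast, Int.toNat_of_nonneg (Int.cast_nonneg_iff.1 (v1 i))]
  have q' : lc B (toR v) = dv (∏ f : S, (f : K) ^ v (.inr f)) +
      lc D fun i => ((v (.inl i)).toNat : ℝ) := by
    rw [hB, q, add_comm, dv_prod_zpow fun f => S0 _ f.2]
    rfl
  rw [mem_setOf_eq, q, q']
  exact h3 _ _ (Finset.prod_ne_zero_iff.2 fun f _ => zpow_ne_zero _ (S0 _ f.2)) (.inr (q' ▸ v2))

section gens

variable {J : Type} [Fintype J] {d : J → ι → ℕ} {u : J → K} {t : J → ℝ}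

/-- generators -/
structure Gn (D : ι → BD K) (d : J → ι → ℕ) (u : J → K) : Prop where
  ne : ∀ j, u j ≠ 0
  sec : ∀ j, Sec (lc D fun i => d j i) (u j)
  gen : ∀ (e : ι → ℕ) (f : K) (P : Pl K), f ≠ 0 → Sec (lc D fun i => e i) f →
    ∃ n : J → ℕ, ∑ j, n j • d j = e ∧ P.ord (∏ j, u j ^ n j) ≤ P.ord f

theorem exists_gn (h : FG (fun a : ι → ℕ => H0 (lc D fun i => (a i : ℝ))) univ) :
    ∃ (J : Type) (_ : Fintype J) (d : J → ι → ℕ) (u : J → K), Gn D d u := by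
  obtain ⟨S, h1, h2, h3⟩ := fg_iff.1 h
  have := (h1.subset (sep_subset S (·.2 ≠ 0))).fintype
  refine ⟨{t ∈ S | t.2 ≠ 0}, this, fun j => j.1.1, fun j => j.1.2, fun j => j.2.2,
    fun j => mem_H0.1 (h2 _ j.2.1), fun e f P f0 hf => ?_⟩
  have k : ∀ a g, Mono S a g → g = 0 ∨ Mono {t ∈ S | t.2 ≠ 0} a g := fun a g m => by
    induction m with
    | one => exact .inr .one
    | @mul _ _ x y ht _ ih =>
      by_cases e : x = 0
      · simp [e]
      · exact ih.imp (by simp +contextual) (.mul ⟨ht, e⟩)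
  by_contra! c
  have : gen ℂ S e ≤ P.sub (-(P.ord f + 1)) := Submodule.span_le.2 fun g hg =>
    (k e g hg).imp_right fun m => by
      rw [← Subtype.range_coe (s := {t ∈ S | t.2 ≠ 0})] at m
      obtain ⟨n, a1, rfl⟩ := (Mono.iff_range (fun j : {t ∈ S | t.2 ≠ 0} => j.1.1)
        fun j => j.1.2).1 m
      have := Int.cast_le (R := ℝ).2 (Int.add_one_le_of_lt (c n a1))
      push_cast at this
      linarith
  linarith [(this (h3 e trivial (mem_H0.2 hf))).resolve_left f0]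

/-- the degrees -/
def zd (d : J → ι → ℕ) : J → ι → ℤ := fun j i => d j i

/-- the divisors of the generators -/
def gW (D : ι → BD K) (d : J → ι → ℕ) (u : J → K) (j : J) : BD K := dv (u j) + lc D fun i => d j i

theorem lc_gW (h : Fe (zd d) a t) : lc (gW D d u) t = ∑ j, t j • dv (u j) + lc D a := by
  rw [← h.2, lc_sum, lc]
  simp only [gW, smul_add, Finset.sum_add_distrib, lc_smul]
  rfl

theorem Gn.nn (g : Gn D d u) (j : J) : 0 ≤ gW D d u j := (g.sec j).resolve_left (g.ne j)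

theorem Gn.rep (g : Gn D d u) (h : Fe (zd d) a t) : Rep (lc D a) (lc (gW D d u) t) :=
  ⟨Finset.sum_nonneg fun j _ => smul_nonneg (h.1 j) (g.nn j), by
    rw [lc_gW h, add_sub_cancel_right]
    exact sum_mem fun j _ => Submodule.smul_mem _ _ (dv_mem_Prn _)⟩

theorem Gn.nat (g : Gn D d u) {n : J → ℕ} (h : Fe (zd d) a fun j => n j) :
    lc (gW D d u) (fun j => n j) = dv (∏ j, u j ^ n j) + lc D a := by
  rw [lc_gW h, dv_prod _ fun j _ => pow_ne_zero _ (g.ne j)]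
  simp only [dv_pow]

theorem Gn.le (g : Gn D d u) (h : Det T D) (ha : 0 ≤ a) (hG : Rep (lc D a) G) (P : Pl K) :
    ∃ t, Fe (zd d) a t ∧ lc (gW D d u) t P ≤ G P := by
  refine h.ind (p := fun a G => ∃ t, Fe (zd d) a t ∧ lc (gW D d u) t P ≤ G P)
    ⟨0, fe_zero, by rw [lc_zero]⟩ ?_ ?_ (fun e f f0 hf => ?_) ha hG
  · rintro a G b G' ⟨t, a1, a2⟩ ⟨t', b1, b2⟩
    exact ⟨t + t', a1.add b1, by rw [lc_add]; exact add_le_add a2 b2⟩
  · rintro a G c hc ⟨t, a1, a2⟩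
    exact ⟨c • t, a1.smul hc, by rw [lc_smul]; exact mul_le_mul_of_nonneg_left a2 hc⟩
  · obtain ⟨n, rfl, h2⟩ := g.gen e f P f0 hf
    have k : Fe (zd d) (fun i => ((∑ j, n j • d j) i : ℝ)) fun j => n j :=
      ⟨fun j => Nat.cast_nonneg _, funext fun i => by simp [zd]⟩
    refine ⟨_, k, ?_⟩
    rw [g.nat k]
    exact add_le_add (Int.cast_le.2 h2) le_rfl

theorem Gn.zar (g : Gn D d u) (h : Det T D) : ∃ H, Zar D H := by
  classical
  obtain ⟨H₀, h₀⟩ := exists_walls (zd d)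
  have W := h₀.mono (Finset.subset_union_left (s₂ := Finset.univ.image fun i => Pi.single i 1))
  generalize hH : H₀ ∪ Finset.univ.image (fun i => Pi.single i 1) = H at W
  have crd : ∀ z, 0 ≤ z → ∀ a ∈ cell H z, 0 ≤ a := fun z hz a ha i => by
    simpa [pr_single] using (ha (Pi.single i 1) (by simp [← hH])).1 (by simpa [pr_single] using hz i)
  have eff : ∀ z, 0 ≤ z → Eff (lc D z) → ∀ a ∈ cell H z, Eff (lc D a) := fun z hz ⟨G, hG⟩ a ha => by
    rcases isEmpty_or_nonempty (Pl K) with _ | ⟨⟨P⟩⟩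
    · exact .of_nonneg fun P => isEmptyElim P
    obtain ⟨t, ht, -⟩ := g.le h hz hG P
    obtain ⟨t', ht', -⟩ := W.fe ht ha
    exact (g.rep ht').eff
  refine ⟨H, crd, eff, fun z hz e a ha b hb => le_antisymm ?_ fun P => ?_, fun e he ⟨G, hG⟩ => ?_⟩
  · rw [lc_add]
    exact sig_add_le (eff z hz e a ha) (eff z hz e b hb)
  · refine (eff z hz e _ (add_mem_cell ha hb)).le_sig fun G hG => ?_
    obtain ⟨t, ht, k⟩ := g.le h (crd z hz _ (add_mem_cell ha hb)) hG P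
    obtain ⟨t₁, t₂, a1, a2, a3⟩ := W.split ha hb ht fun j => g.nn j P
    have b1 := (g.rep a1).sig_le P
    have b2 := (g.rep a2).sig_le P
    simp only [lc_apply (gW D d u)] at k b1 b2
    exact (add_le_add b1 b2).trans (a3.trans k)
  rcases isEmpty_or_nonempty (Pl K) with _ | ⟨⟨P⟩⟩
  · exact ⟨1, ∅, one_pos, funext fun P => isEmptyElim P⟩
  obtain ⟨t, ht, -⟩ := g.le h he hG P
  obtain ⟨k, k1, S, h1, h2⟩ := lp_int ht
  have k0 : (0 : ℝ) < k := by exact_mod_cast k1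
  refine ⟨k, S.image fun n => ∏ j, u j ^ n j, k1, funext fun P => ?_⟩
  obtain ⟨n, hn, h3⟩ := h2 _ fun j => g.nn j P
  have m : ∀ t, Fe (zd d) ((k : ℝ) • toR e) t →
      lc (gW D d u) (fun j => n j) P ≤ lc (gW D d u) t P := fun t ht => by
    have := h3 _ (inv_smul_smul₀ k0.ne' (toR e) ▸ ht.smul (inv_nonneg.2 k0.le))
    rwa [← lc_apply (gW D d u), ← lc_apply (gW D d u), lc_smul, Pi.smul_apply, smul_eq_mul,
      mul_inv_cancel_left₀ k0.ne'] at this
  have s : sig (lc D ((k : ℝ) • toR e)) P = _ := sig_eq (g.rep (h1 n hn)) fun G hG =>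
    let ⟨t, a1, a2⟩ := g.le h (smul_nonneg k0.le he) hG P
    (m t a1).trans a2
  rw [← mob_smul _ k0.le, ← lc_smul, mob, Pi.sub_apply, s, g.nat (h1 n hn), mx_apply,
    P.mz_eq (Finset.mem_image_of_mem _ hn) (Finset.prod_ne_zero_iff.2 fun j _ =>
      pow_ne_zero _ (g.ne j)) fun f hf _ => ?_]
  · simp [dv]
  obtain ⟨n', hn', rfl⟩ := Finset.mem_image.1 hf
  have := m _ (h1 n' hn')
  rw [g.nat (h1 n hn), g.nat (h1 n' hn')] at this
  exact Int.cast_le.1 (le_of_add_le_add_right this)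

end gens

theorem lc_smul_left (D : ι → BD K) (c : ℝ) (a : ι → ℝ) :
    lc (fun i => c • D i) a = c • lc D a := by
  simp only [lc, Finset.smul_sum, smul_comm c]

theorem Zar.of_smul {m : ℕ} (hm : 0 < m) (Z : Zar (fun i => (m : ℝ) • D i) H) : Zar D H := by
  have m0 : (0 : ℝ) < m := by exact_mod_cast hm
  have e : ∀ z, Eff (lc D z) → Eff (lc (fun i => (m : ℝ) • D i) z) := fun z h =>
    lc_smul_left D m z ▸ h.smul m0.le
  refine ⟨Z.crd, fun z hz h a ha => .of_smul m0 (lc_smul_left D m a ▸ Z.eff z hz (e z h) a ha),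
    fun z hz h a ha b hb => ?_, fun v hv h => ?_⟩
  · have := Z.add z hz (e z h) a ha b hb
    simp only [lc_smul_left, sig_smul _ m0.le, ← smul_add] at this
    exact smul_right_injective _ m0.ne' this
  · obtain ⟨k, s, k0, q⟩ := Z.int v hv (e _ h)
    exact ⟨k * m, s, mul_pos k0 hm, by
      rw [← q, lc_smul_left, mob_smul _ m0.le, smul_smul, Nat.cast_mul]⟩

theorem Det.smul (h : Det T D) {m : ℕ} : Det T fun i => (m : ℝ) • D i :=
  ⟨h.fin, fun i => (h.sup i).subset fun P k => ⟨k.1, right_ne_zero_of_mul k.2⟩,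
    fun i P hP => let ⟨q, e⟩ := h.rat i P hP; ⟨m * q, by simp [e]⟩, fun a ha Z hZ => by
      rw [lc_smul_left, ← lc_smul]
      exact h.pos _ (smul_nonneg (Nat.cast_nonneg m) ha) Z hZ⟩

/-- finite generation gives the Zariski decompositions -/
theorem zar_fg (h : Det T D) {m : ℕ} (hm : 0 < m)
    (F : FG (fun a : ι → ℕ => H0 ((m : ℝ) • lc D fun i => (a i : ℝ))) univ) : ∃ H, Zar D H := by
  simp only [← lc_smul_left] at F
  obtain ⟨J, _, d, u, g⟩ := exists_gn F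
  exact (g.zar h.smul).imp fun _ => Zar.of_smul hm

/-- the cone of the effective combinations -/
def Ef (D : ι → BD K) : Set (ι → ℝ) := {a | 0 ≤ a ∧ Eff (lc D a)}

theorem Ef.add (h : a ∈ Ef D) (k : b ∈ Ef D) : a + b ∈ Ef D :=
  ⟨add_nonneg h.1 k.1, lc_add D a b ▸ h.2.add k.2⟩

theorem Ef.smul (h : a ∈ Ef D) {c : ℝ} (hc : 0 ≤ c) : c • a ∈ Ef D :=
  ⟨smul_nonneg hc h.1, lc_smul D c a ▸ h.2.smul hc⟩

theorem Ef.zero (D : ι → BD K) : 0 ∈ Ef D := ⟨le_rfl, (lc_zero D).symm ▸ Eff.zero⟩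

namespace Zar

theorem mono (Z : Zar D H) {H' : Finset (ι → ℤ)} (e : H ⊆ H') : Zar D H' :=
  ⟨fun z h a k => Z.crd z h a (cell_anti e z k), fun z h h' a k => Z.eff z h h' a (cell_anti e z k),
    fun z h h' a k b k' => Z.add z h h' a (cell_anti e z k) b (cell_anti e z k'), Z.int⟩

theorem sub (Z : Zar D H) (hz : z ∈ Ef D) : cell H z ⊆ Ef D := fun a k =>
  ⟨Z.crd z hz.1 a k, Z.eff z hz.1 hz.2 a k⟩

theorem mob_add (Z : Zar D H) (hz : z ∈ Ef D) (ha : a ∈ cell H z) (hb : b ∈ cell H z) :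
    mob (lc D (a + b)) = mob (lc D a) + mob (lc D b) := by
  rw [mob, Z.add z hz.1 hz.2 a ha b hb, lc_add, add_sub_add_comm]
  rfl

theorem sig_comb (Z : Zar D H) (hz : z ∈ Ef D) (ha : a ∈ cell H z) (hb : b ∈ cell H z) {s t : ℝ}
    (hs : 0 ≤ s) (ht : 0 ≤ t) :
    sig (lc D (s • a + t • b)) = s • sig (lc D a) + t • sig (lc D b) := by
  rw [Z.add z hz.1 hz.2 _ (smul_mem_cell ha hs) _ (smul_mem_cell hb ht), lc_smul, lc_smul,
    sig_smul _ hs, sig_smul _ ht]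

theorem sig_sum (Z : Zar D H) (hz : z ∈ Ef D) {α : Type*} (s : Finset α) {x : α → ι → ℝ}
    {w : α → ℝ} (hx : ∀ v ∈ s, x v ∈ cell H z) (hw : ∀ v ∈ s, 0 ≤ w v) :
    sig (lc D (∑ v ∈ s, w v • x v)) = ∑ v ∈ s, w v • sig (lc D (x v)) := by
  classical
  induction s using Finset.induction_on with
  | empty => simp [lc_zero]
  | insert i s hi ih =>
    simp only [Finset.forall_mem_insert] at hx hw
    rw [Finset.sum_insert hi, Finset.sum_insert hi, Z.add z hz.1 hz.2 _ (smul_mem_cell hx.1 hw.1) _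
      (sum_mem_cell s fun v k => smul_mem_cell (hx.2 v k) (hw.2 v k)), ih hx.2 hw.2, lc_smul,
      sig_smul _ hw.1]

theorem smp (Z : Zar D H) (ha : a ∈ Ef D) : Smp (mob (lc D a)) := by
  obtain ⟨s, hs⟩ := cell_cone H a
  refine (cone_subset (C := {x | x ∈ cell H a ∧ Smp (mob (lc D x))}) (s := s)
    ⟨zero_mem_cell H a, by simpa [lc_zero] using Smp.zero⟩
    (fun x k y k' => ⟨add_mem_cell k.1 k'.1, Z.mob_add ha k.1 k'.1 ▸ k.2.add k'.2⟩)
    (fun x k c hc => ⟨smul_mem_cell k.1 hc, by rw [lc_smul, mob_smul _ hc]; exact k.2.smul hc⟩)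
    (fun v hv => ?_) (hs ▸ mem_cell_self H a)).2
  have e : toR v ∈ cell H a := hs ▸ toR_mem_cone hv
  obtain ⟨k, s, k0, q⟩ := Z.int v (Z.sub ha e).1 (Z.sub ha e).2
  exact ⟨e, .of_smul (Nat.cast_pos.2 k0) (q ▸ smp_mx s)⟩

theorem zd (Z : Zar D H) (ha : a ∈ Ef D) : ZD (lc D a) (sig (lc D a)) := zd_sig (Z.smp ha)

theorem rat (Z : Zar D H) {q : ι → ℚ} (ha : (fun i => (q i : ℝ)) ∈ Ef D) :
    ∃ (k : ℕ) (s : Finset K), 0 < k ∧ (k : ℝ) • mob (lc D fun i => q i) = mx s := by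
  obtain ⟨m, v, hm, e⟩ := exists_clear q
  have e' : toR v = (m : ℝ) • fun i => (q i : ℝ) := funext fun i => by
    simp only [toR_apply, Pi.smul_apply, smul_eq_mul]
    exact_mod_cast e i
  have := e' ▸ Ef.smul ha (Nat.cast_nonneg m)
  obtain ⟨k, s, k0, h⟩ := Z.int v this.1 this.2
  exact ⟨k * m, s, mul_pos k0 hm, by
    rw [← h, e', lc_smul, mob_smul _ (Nat.cast_nonneg m), smul_smul, Nat.cast_mul]⟩

theorem carQ (Z : Zar D H) {q : ι → ℚ} (ha : (fun i => (q i : ℝ)) ∈ Ef D) :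
    CarQ (mob (lc D fun i => q i)) :=
  let ⟨k, s, k0, h⟩ := Z.rat ha
  ⟨k, k0, h ▸ mx_mem_CarZ s⟩

/-- the linear extension of the mobile part from a cell -/
theorem lin (Z : Zar D H) (hz : z ∈ Ef D) : ∃ Φ : (ι → ℝ) →ₗ[ℝ] BD K, (∀ a, Φ a ∈ Car K) ∧
    ∀ a ∈ cell H z, mob (lc D a) = Φ a :=
  exists_lin (fun a => mob (lc D a)) _ (zero_mem_cell H z)
    (fun a ha b hb => ⟨add_mem_cell ha hb, Z.mob_add hz ha hb⟩)
    (fun a ha c hc => ⟨smul_mem_cell ha hc, by rw [lc_smul, mob_smul _ hc]⟩)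
    fun a ha => (Z.smp (Z.sub hz ha)).car

theorem union (Z : Zar D H) : Ef D = ⋃₀ (cell H '' Ef D) :=
  Subset.antisymm (fun a h => ⟨_, ⟨a, h, rfl⟩, mem_cell_self H a⟩)
    (by rintro a ⟨_, ⟨z, h, rfl⟩, k⟩; exact Z.sub h k)

theorem closed (Z : Zar D H) : IsClosed (Ef D) := by
  rw [Z.union, sUnion_eq_biUnion]
  exact ((finite_cells H).subset (image_subset_range _ _)).isClosed_biUnion
    (by rintro _ ⟨z, -, rfl⟩; exact isClosed_cell H z)

theorem cone (Z : Zar D H) : ∃ s, Ef D = cone s := by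
  classical
  have := ((finite_cells H).subset (image_subset_range _ (Ef D))).fintype
  choose s hs using fun c : cell H '' Ef D =>
    show ∃ s, c.1 = P277Z.Gor.cone s from let ⟨z, _, e⟩ := c.2; e ▸ cell_cone H z
  refine ⟨Finset.univ.biUnion s, Subset.antisymm (fun a h => ?_) (cone_subset (Ef.zero D)
    (fun _ k _ => Ef.add k) (fun _ k _ => Ef.smul k) fun v hv => ?_)⟩
  · exact cone_mono (Finset.subset_biUnion_of_mem s (Finset.mem_univ ⟨_, a, h, rfl⟩))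
      (hs _ ▸ mem_cell_self H a)
  · obtain ⟨c, -, k⟩ := Finset.mem_biUnion.1 hv
    exact Z.union ▸ ⟨_, c.2, hs c ▸ toR_mem_cone k⟩

/-- near `a` the fixed part is linear on the planes through `a` -/
theorem star (Z : Zar D H) (a : ι → ℝ) : ∀ᶠ z in 𝓝 a, z ∈ Ef D → a ∈ Ef D ∧
    ∀ s t : ℝ, 0 ≤ s → 0 ≤ t →
      sig (lc D (s • a + t • z)) = s • sig (lc D a) + t • sig (lc D z) :=
  (cell_near H a).mono fun z k hz =>
    ⟨Z.sub hz k, fun _ _ => Z.sig_comb hz k (mem_cell_self H z)⟩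

theorem cont (Z : Zar D H) : ContinuousOn (fun a => sig (lc D a)) (Ef D) := by
  have := ((finite_cells H).subset (image_subset_range _ (Ef D))).to_subtype
  rw [Z.union, sUnion_eq_iUnion]
  refine (locallyFinite_of_finite _).continuousOn_iUnion ?_ ?_ <;> rintro ⟨_, z, hz, rfl⟩
  · exact isClosed_cell H z
  · obtain ⟨Φ, -, h⟩ := Z.lin hz
    refine (lcL D - Φ).continuous_of_finiteDimensional.continuousOn.congr fun a ha => ?_
    exact eq_sub_of_add_eq' (h a ha ▸ mob_add_sig _)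

end Zar

theorem cell_nat (hz : ∀ a ∈ cell H z, 0 ≤ a) : ∃ c : Finset (ι → ℕ),
    (∀ v ∈ c, (fun i => (v i : ℝ)) ∈ cell H z) ∧ ∀ a ∈ cell H z, ∃ w : (ι → ℕ) → ℝ, 0 ≤ w ∧
      a = ∑ v ∈ c, w v • fun i => (v i : ℝ) := by
  classical
  obtain ⟨s, hs⟩ := cell_cone H z
  have k : ∀ v ∈ s, (fun i => ((v i).toNat : ℝ)) = toR v := fun v hv => funext fun i => by
    rw [toR_apply, ← Int.cast_natCast, Int.toNat_of_nonneg
      (Int.cast_nonneg_iff.1 (hz _ (hs ▸ toR_mem_cone hv) i))]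
  refine ⟨s.image fun v i => (v i).toNat, fun v hv => ?_, hs ▸ cone_subset ⟨0, le_rfl, by simp⟩
    ?_ ?_ fun v hv => ⟨Pi.single (fun i => (v i).toNat) 1, Pi.single_nonneg.2 zero_le_one, ?_⟩⟩
  · obtain ⟨v, h, rfl⟩ := Finset.mem_image.1 hv
    exact k v h ▸ hs ▸ toR_mem_cone h
  · rintro _ ⟨w, h, rfl⟩ _ ⟨w', h', rfl⟩
    exact ⟨w + w', add_nonneg h h', by simp [add_smul, Finset.sum_add_distrib]⟩
  · rintro _ ⟨w, h, rfl⟩ c hc
    exact ⟨c • w, smul_nonneg hc h, by simp [mul_smul, Finset.smul_sum]⟩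
  · rw [Finset.sum_eq_single_of_mem _ (Finset.mem_image_of_mem _ hv)
      (by simp +contextual [Pi.single_apply]), Pi.single_eq_same, one_smul, k v hv]

theorem carQ_lc (h : ∀ i, CarQ (D i)) (q : ι → ℚ) : CarQ (lc D fun i => q i) :=
  CarQ.sum _ fun i _ => (h i).qsmul _

theorem zar_of (h : ZARH) : ZAR := fun n K _ _ hK ι _ Λ D Γ h1 h2 h3 => by
  classical
  obtain ⟨⟨H, Z⟩, e⟩ := h n K hK ι Λ D Γ h1 h2 h3
  have := ((finite_cells H).subset (image_subset_range _ (Ef D))).fintype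
  choose z hz ez using fun c : cell H '' Ef D => c.2
  choose c c1 c2 using fun x => cell_nat (Z.crd _ (hz x).1)
  refine ⟨fun a => sig (lc D a), Finset.univ.image c, fun a ha => ⟨fun k => ?_, ?_⟩,
    fun a ha k => Z.zd ⟨ha, e a ha k⟩, ?_, ?_⟩ <;>
    simp only [Finset.mem_image, Finset.mem_univ, true_and, exists_exists_eq_and,
      forall_exists_index, forall_apply_eq_imp_iff]
  · exact ⟨⟨_, a, ⟨ha, e a ha k⟩, rfl⟩, c2 _ a (ez _ ▸ mem_cell_self H a)⟩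
  · rintro x w ⟨hw, rfl⟩
    exact (Z.sub (hz x) (sum_mem_cell _ fun v k => smul_mem_cell (c1 x v k) (hw v))).2.psef
  · intro x v k
    have := (carQ_lc (fun i => (h3 i).1) fun i => v i).sub
      (Z.carQ (q := fun i => v i) (by simpa using Z.sub (hz x) (c1 x v k)))
    simpa [mob] using this
  · exact fun x w hw => Z.sig_sum (hz x) _ (c1 x) fun v _ => hw v

theorem det_of {n : ℕ} {Λ : BD K} (h1 : Smp Λ)
    (F : ∀ Z ∈ Car K, {P | On n Λ P ∧ Z P ≠ 0}.Finite)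
    (N : ∀ β, Dsc Λ β → (∀ P, On n Λ P → 0 ≤ β P) → 0 ≤ β) (h : ∀ i, CarQ (D i) ∧ Dsc Λ (D i)) :
    Det {P | On n Λ P} D :=
  ⟨fun f => F _ (dv_mem_Car f), fun i => F _ (h i).1.car, fun i P _ => (h i).1.rat P,
    fun _ _ _ hZ => N _ (Gs.dsc_add h1 ((Gs.dS h1).sum_mem fun i _ => Gs.dsc_smul h1 _ (h i).2)
      (Gs.dsc_prn h1 hZ))⟩

theorem zarh_of' (F : ForS fun n K _ _ => ∀ Λ : BD K, Smp Λ → Big Λ → ∀ Z ∈ Car K,
      {P | On n Λ P ∧ Z P ≠ 0}.Finite)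
    (N : ForS fun n K _ _ => ∀ Λ β : BD K, Smp Λ → Big Λ → Dsc Λ β →
      (∀ P, On n Λ P → 0 ≤ β P) → 0 ≤ β) (U : FGU) : ZARH := by
  intro n K _ _ hK
  suffices k : ∀ (ι : Type) [Fintype ι] (Λ : BD K) (D Γ : ι → BD K), Smp Λ → Big Λ →
      (∀ i, CarQ (D i) ∧ Dsc Λ (D i) ∧ Γ i ∈ Car K ∧ Klt (n + 1) (Γ i) ∧ Bdy n Λ (Γ i) ∧
        Nef (D i - Γ i) ∧ Big (D i - Γ i)) → ∃ H, Zar D H by
    refine fun ι _ Λ D Γ h1 h2 h3 => ⟨k ι Λ D Γ h1 h2 h3, fun a ha e => ?_⟩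
    rcases isEmpty_or_nonempty ι with _ | ⟨⟨j⟩⟩
    · simpa [lc] using Eff.zero
    obtain ⟨s, hs⟩ := Gs.exists_mx h1
    obtain ⟨ε, e0, b⟩ := (Gs.big_ampOn h2 hs).opn (h3 j).1.car
    obtain ⟨m, hm⟩ := exists_nat_one_div_lt e0
    have m0 : (0 : ℝ) < m + 1 := by positivity
    have b' : Big (D j + ((m + 1 : ℚ) : ℝ) • mx s) := by
      have := (b _ ((abs_of_pos (one_div_pos.2 m0)).trans_le hm.le)).smul m0
      rwa [smul_add, one_div, smul_inv_smul₀ m0.ne', add_comm, ← Rat.cast_natCast, ← Rat.cast_one,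
        ← Rat.cast_add] at this
    have p : Smp (((m + 1 : ℚ) : ℝ) • mx s) := (smp_mx s).smul (by positivity)
    generalize hB : D j + ((m + 1 : ℚ) : ℝ) • mx s = B at b'
    obtain ⟨H, Z⟩ := k (Option ι) Λ (Option.elim · B D) (Option.elim · (Γ j) Γ) h1 h2 (by
      rintro (_ | i)
      · obtain ⟨a1, a2, a3, a4, a5, a6, a7⟩ := h3 j
        simp only [Option.elim, ← hB, add_sub_right_comm]
        exact ⟨a1.add ((carQ_mx s).qsmul _), Gs.dsc_add h1 a2 (Gs.dsc_smul h1 _ hs.1), a3, a4, a5,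
          a6.add p.nef, a7.add_smp p⟩
      · exact h3 i)
    have q : ∀ t : ℝ, lc (Option.elim · B D) (Option.elim · t a) = lc D a + t • B := fun t => by
      simp [lc, Fintype.sum_option, add_comm]
    have c : Continuous fun t : ℝ => (Option.elim · t a : Option ι → ℝ) :=
      continuous_pi (by rintro (_ | i); exacts [continuous_id, continuous_const])
    have := closure_minimal (s := Ioi 0) ?_ (Z.closed.preimage c)
      (closure_Ioi (0 : ℝ) ▸ self_mem_Ici)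
    · simpa [q] using this.2
    exact fun t ht =>
      ⟨by rintro (_ | i); exacts [le_of_lt ht, ha i], q t ▸ (e.add_big (b'.smul ht)).eff⟩
  intro ι _ Λ D Γ h1 h2 h3
  obtain ⟨m, hm, u⟩ := U n K hK ι Λ D Γ h1 h2 h3
  exact zar_fg (det_of h1 (F n K hK Λ h1 h2) (fun β => N n K hK Λ β h1 h2)
    fun i => ⟨(h3 i).1, (h3 i).2.1⟩) hm u

theorem zarh_of (M : MOD) (N : NEG) : FGU → ZARH :=
  zarh_of' (fun n K _ _ hK Λ h1 h2 Z hZ =>
    let ⟨s, hs⟩ := Gs.exists_mx h1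
    have b := Gs.big_ampOn h2 hs
    (((M.isb n K hK).1 Z hZ s b).union (M.exc n K hK Λ _ h1 h2 (smp_mx s) b)).subset fun P k =>
      (em _).imp (⟨·, k.2⟩) (⟨k.1, ·⟩))
    fun n K _ _ hK Λ β a b c d => (N.nn n K hK Λ β a b c d).1

end Vale.Agent.P287D
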