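import Vale.Agent.P277Z.Gr.Sat
import Vale.Agent.P277Z.Cvx.Gordan

/-!
# P287D: cells of a finite set of walls, linear programs
-/

set_option linter.all false

open Set Finset
open P277Z.Gor P277Z.Gr

noncomputable section

namespace Vale.Agent.P287D

variable {ι : Type} [Fintype ι]

/-- the closed cell of `z` -/
def cell (H : Finset (ι → ℤ)) (z : ι → ℝ) : Set (ι → ℝ) :=
  {a | ∀ h ∈ H, (0 ≤ pr h z → 0 ≤ pr h a) ∧ (pr h z ≤ 0 → pr h a ≤ 0)}

variable {H : Finset (ι → ℤ)} {z a b : ι → ℝ}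

theorem mem_cell_self (H : Finset (ι → ℤ)) (z : ι → ℝ) : z ∈ cell H z := fun _ _ => ⟨id, id⟩

theorem cell_sub (h : a ∈ cell H z) : cell H a ⊆ cell H z := fun _ k g hg =>
  ⟨fun e => (k g hg).1 ((h g hg).1 e), fun e => (k g hg).2 ((h g hg).2 e)⟩

theorem cell_anti {H' : Finset (ι → ℤ)} (h : H ⊆ H') (z : ι → ℝ) : cell H' z ⊆ cell H z :=
  fun _ k g hg => k g (h hg)

theorem zero_mem_cell (H : Finset (ι → ℤ)) (z : ι → ℝ) : 0 ∈ cell H z := fun _ _ => by simp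

theorem add_mem_cell (h : a ∈ cell H z) (k : b ∈ cell H z) : a + b ∈ cell H z := fun g hg => by
  rw [pr_add]
  exact ⟨fun e => add_nonneg ((h g hg).1 e) ((k g hg).1 e),
    fun e => add_nonpos ((h g hg).2 e) ((k g hg).2 e)⟩

theorem smul_mem_cell (h : a ∈ cell H z) {c : ℝ} (hc : 0 ≤ c) : c • a ∈ cell H z := fun g hg => by
  rw [pr_smul]
  exact ⟨fun e => mul_nonneg hc ((h g hg).1 e),
    fun e => mul_nonpos_of_nonneg_of_nonpos hc ((h g hg).2 e)⟩

theorem sum_mem_cell {α : Type*} (s : Finset α) {x : α → ι → ℝ} (h : ∀ v ∈ s, x v ∈ cell H z) :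
    ∑ v ∈ s, x v ∈ cell H z :=
  Finset.sum_induction x (· ∈ cell H z) (fun _ _ => add_mem_cell) (zero_mem_cell H z) h

theorem mem_cell_add (h : a ∈ cell H z) (k : b ∈ cell H z) : a ∈ cell H (a + b) := fun g hg => by
  rw [pr_add]
  rcases le_total 0 (pr g z) with e | e
  · have := (h g hg).1 e
    have := (k g hg).1 e
    exact ⟨fun _ => by linarith, fun _ => by linarith⟩
  · have := (h g hg).2 e
    have := (k g hg).2 e
    exact ⟨fun _ => by linarith, fun _ => by linarith⟩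

theorem pr_neg (h : ι → ℤ) (x : ι → ℝ) : pr (-h) x = -pr h x := by simp [pr]

theorem pr_single [DecidableEq ι] (i : ι) (x : ι → ℝ) : pr (Pi.single i 1) x = x i := by
  simp [pr, Pi.single_apply]

theorem cell_hcone (H : Finset (ι → ℤ)) (z : ι → ℝ) : ∃ T, cell H z = hcone T := by
  classical
  refine ⟨H.filter (0 ≤ pr · z) ∪ (H.filter (pr · z ≤ 0)).image Neg.neg, Set.ext fun a => ?_⟩
  simp only [cell, hcone, Set.mem_ofPred_eq, Finset.mem_union, Finset.mem_filter, or_imp, forall_and,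
    Finset.mem_image, forall_exists_index, and_imp]
  refine and_congr Iff.rfl ⟨?_, fun k g hg e => ?_⟩
  · rintro k _ g hg e rfl
    rw [pr_neg, neg_nonneg]
    exact k g hg e
  · simpa [pr_neg] using k _ g hg e rfl

theorem cell_cone (H : Finset (ι → ℤ)) (z : ι → ℝ) : ∃ s, cell H z = cone s :=
  let ⟨T, h⟩ := cell_hcone H z
  let ⟨s, k⟩ := exists_cone T
  ⟨s, h.trans k⟩

theorem isClosed_cell (H : Finset (ι → ℤ)) (z : ι → ℝ) : IsClosed (cell H z) :=
  let ⟨T, h⟩ := cell_hcone H z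
  h ▸ isClosed_hcone T

theorem finite_cells (H : Finset (ι → ℤ)) : (range (cell H)).Finite := by
  classical
  refine (Set.finite_range fun σ : H → Prop × Prop =>
    {a | ∀ h : H, ((σ h).1 → 0 ≤ pr h.1 a) ∧ ((σ h).2 → pr h.1 a ≤ 0)}).subset ?_
  rintro _ ⟨z, rfl⟩
  exact ⟨fun h => (0 ≤ pr h.1 z, pr h.1 z ≤ 0), Set.ext fun a => by simp [cell]⟩

/-- near `z` all cells contain `z` -/
theorem cell_near (H : Finset (ι → ℤ)) (z : ι → ℝ) : ∀ᶠ x in nhds z, z ∈ cell H x := by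
  refine (Filter.eventually_all_finset H).2 fun g _ => Filter.Eventually.and ?_ ?_
  · rcases le_or_gt 0 (pr g z) with e | e
    · exact .of_forall fun _ _ => e
    · exact ((continuous_pr g).continuousAt.eventually_lt continuousAt_const e).mono
        fun _ h k => absurd k (not_le.2 h)
  · rcases le_or_gt (pr g z) 0 with e | e
    · exact .of_forall fun _ _ => e
    · exact (continuousAt_const.eventually_lt (continuous_pr g).continuousAt e).mono
        fun _ h k => absurd k (not_le.2 h)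

theorem cell_le_hcone {T : Finset (ι → ℤ)} (hT : T ⊆ H) (hz : z ∈ hcone T) :
    cell H z ⊆ hcone T := fun _ k g hg => (k g (hT hg)).1 (hz g hg)

/-- additive and homogeneous maps on a cell are linear -/
theorem exists_lin {V : Type*} [AddCommGroup V] [Module ℝ V] {C : Set (ι → ℝ)} (φ : (ι → ℝ) → V)
    (W : Submodule ℝ V) (h0 : 0 ∈ C) (h1 : ∀ a ∈ C, ∀ b ∈ C, a + b ∈ C ∧ φ (a + b) = φ a + φ b)
    (h2 : ∀ a ∈ C, ∀ c : ℝ, 0 ≤ c → c • a ∈ C ∧ φ (c • a) = c • φ a) (hW : ∀ a ∈ C, φ a ∈ W) :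
    ∃ Φ : (ι → ℝ) →ₗ[ℝ] V, (∀ a, Φ a ∈ W) ∧ ∀ a ∈ C, φ a = Φ a := by
  classical
  obtain ⟨B, hB, hs, hi⟩ := exists_linearIndependent ℝ C
  have hi' : LinearIndepOn ℝ id B := hi
  let b := Module.Basis.extend hi'
  let Φ : (ι → ℝ) →ₗ[ℝ] W := b.constr ℝ fun v => if h : v.1 ∈ C then ⟨φ v.1, hW _ h⟩ else 0
  have k : ∀ v ∈ B, (Φ v : V) = φ v := fun v hv => by
    have := b.constr_basis ℝ (fun v => if h : v.1 ∈ C then (⟨φ v.1, hW _ h⟩ : W) else 0)
      ⟨v, hi'.subset_extend _ hv⟩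
    rw [Module.Basis.extend_apply_self, dif_pos (hB hv)] at this
    exact congrArg Subtype.val this
  refine ⟨W.subtype.comp Φ, fun a => (Φ a).2, fun a ha => ?_⟩
  have key : ∀ x ∈ Submodule.span ℝ B, ∃ p ∈ C, ∃ q ∈ C, x + q = p ∧ φ p = Φ p ∧ φ q = Φ q := by
    have z : φ 0 = Φ 0 := by simpa using (h2 0 h0 0 le_rfl).2
    intro x hx
    induction hx using Submodule.span_induction with
    | mem v hv => exact ⟨v, hB hv, 0, h0, add_zero _, (k v hv).symm, z⟩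
    | zero => exact ⟨0, h0, 0, h0, add_zero _, z, z⟩
    | add x y _ _ ih ih' =>
      obtain ⟨p, a1, q, a2, a3, a4, a5⟩ := ih
      obtain ⟨p', b1, q', b2, b3, b4, b5⟩ := ih'
      refine ⟨p + p', (h1 _ a1 _ b1).1, q + q', (h1 _ a2 _ b2).1, by rw [← a3, ← b3]; abel, ?_, ?_⟩
      · rw [(h1 _ a1 _ b1).2, a4, b4, map_add, Submodule.coe_add]
      · rw [(h1 _ a2 _ b2).2, a5, b5, map_add, Submodule.coe_add]
    | smul c x _ ih =>
      obtain ⟨p, a1, q, a2, a3, a4, a5⟩ := ih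
      have s : ∀ r ∈ C, φ r = Φ r → ∀ c : ℝ, 0 ≤ c → φ (c • r) = Φ (c • r) := fun r hr e c hc => by
        rw [(h2 r hr c hc).2, e, map_smul, Submodule.coe_smul]
      rcases le_total 0 c with e | e
      · exact ⟨c • p, (h2 _ a1 c e).1, c • q, (h2 _ a2 c e).1, by rw [← a3, smul_add],
          s p a1 a4 c e, s q a2 a5 c e⟩
      · have e' := neg_nonneg.2 e
        exact ⟨-c • q, (h2 _ a2 _ e').1, -c • p, (h2 _ a1 _ e').1, by rw [← a3]; module,
          s q a2 a5 _ e', s p a1 a4 _ e'⟩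
  obtain ⟨p, -, q, a2, rfl, a4, a5⟩ := key a (hs ▸ Submodule.subset_span ha)
  rw [(h1 _ ha _ a2).2, map_add, Submodule.coe_add, a5] at a4
  exact add_right_cancel a4

section lp

variable {J : Type} [Fintype J] (d : J → ι → ℤ)

/-- feasible points -/
def Fe (a : ι → ℝ) (t : J → ℝ) : Prop := (∀ j, 0 ≤ t j) ∧ ∑ j, t j • toR (d j) = a

open Classical in
/-- `H` contains walls for all cones spanned by some of the `d j` -/
def Walls (H : Finset (ι → ℤ)) : Prop := ∀ I : Finset J, ∃ T ⊆ H, cone (I.image d) = hcone T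

theorem exists_walls : ∃ H, Walls d H := by
  classical
  choose T h using fun I : Finset J => exists_hcone (I.image d)
  exact ⟨univ.biUnion T, fun I => ⟨T I, subset_biUnion_of_mem T (mem_univ I), by
    convert h I⟩⟩

variable {d} {t t' : J → ℝ}

theorem Walls.mono {H' : Finset (ι → ℤ)} (h : Walls d H) (e : H ⊆ H') : Walls d H' := fun I =>
  let ⟨T, a, b⟩ := h I
  ⟨T, a.trans e, b⟩

theorem Fe.add (h : Fe d a t) (h' : Fe d b t') : Fe d (a + b) (t + t') :=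
  ⟨fun j => add_nonneg (h.1 j) (h'.1 j), by
    simp only [Pi.add_apply, add_smul, sum_add_distrib, h.2, h'.2]⟩

theorem Fe.smul (h : Fe d a t) {c : ℝ} (hc : 0 ≤ c) : Fe d (c • a) (c • t) :=
  ⟨fun j => mul_nonneg hc (h.1 j), by
    simp only [Pi.smul_apply, smul_eq_mul, mul_smul, ← smul_sum, h.2]⟩

theorem fe_zero : Fe d 0 0 := ⟨fun _ => le_rfl, by simp⟩

open Classical in
theorem mem_cone_iff (I : Finset J) :
    a ∈ cone (I.image d) ↔ ∃ t, Fe d a t ∧ ∀ j ∉ I, t j = 0 := by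
  constructor
  · intro h
    refine cone_subset (C := {a | ∃ t, Fe d a t ∧ ∀ j ∉ I, t j = 0}) ⟨0, fe_zero, fun _ _ => rfl⟩
      ?_ ?_ ?_ h
    · rintro x ⟨t, h1, h2⟩ y ⟨t', h3, h4⟩
      exact ⟨t + t', h1.add h3, fun j hj => by simp [h2 j hj, h4 j hj]⟩
    · rintro x ⟨t, h1, h2⟩ c hc
      exact ⟨c • t, h1.smul hc, fun j hj => by simp [h2 j hj]⟩
    · intro v hv
      obtain ⟨j, hj, rfl⟩ := Finset.mem_image.1 hv
      refine ⟨Pi.single j 1, ⟨fun i => ?_, by simp [Pi.single_apply]⟩, fun i hi => ?_⟩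
      · rw [Pi.single_apply]; split_ifs <;> norm_num
      · exact Pi.single_eq_of_ne (by rintro rfl; exact hi hj) _
  · rintro ⟨t, ⟨h1, rfl⟩, h2⟩
    refine sum_mem_cone _ _ fun j _ => ?_
    by_cases e : j ∈ I
    · exact smul_mem_cone (toR_mem_cone (mem_image_of_mem d e)) (h1 j)
    · simpa [h2 j e] using zero_mem_cone _

theorem Walls.fe (h : Walls d H) (ht : Fe d z t) (ha : a ∈ cell H z) :
    ∃ t', Fe d a t' ∧ ∀ j, t j = 0 → t' j = 0 := by
  classical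
  obtain ⟨T, h1, h2⟩ := h (univ.filter (t · ≠ 0))
  have := cell_le_hcone h1 (h2 ▸ (mem_cone_iff _).2 ⟨t, ht, fun j hj => by simpa using hj⟩) ha
  obtain ⟨t', h3, h4⟩ := (mem_cone_iff _).1 (h2 ▸ this)
  exact ⟨t', h3, fun j hj => h4 j (by simpa using hj)⟩

/-- basic feasible points -/
def Bas (d : J → ι → ℤ) (a : ι → ℝ) (t : J → ℝ) : Prop :=
  Fe d a t ∧ LinearIndepOn ℝ (fun j => toR (d j)) {j | t j ≠ 0}

theorem Bas.eq (h : Bas d a t) (h' : Fe d a t') (e : ∀ j, t j = 0 → t' j = 0) : t' = t :=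
  funext fun j => sub_eq_zero.1 (linIndepOn_iff.1 h.2 (fun j => t' j - t j)
    (fun j hj => by
      have : t j = 0 := by simpa using hj
      rw [this, e j this, sub_zero])
    (by simp only [sub_smul, sum_sub_distrib, h.1.2, h'.2, sub_self]) j)

theorem Fe.bas (h : Fe d a t) {w : J → ℝ} (hw : ∀ j, 0 ≤ w j) :
    ∃ t', Bas d a t' ∧ ∑ j, t' j * w j ≤ ∑ j, t j * w j :=
  let ⟨t', h1, _, h3, h4, h5⟩ := exists_basic (fun j => toR (d j)) hw t h.1
  ⟨t', ⟨⟨h1, h3.trans h.2⟩, h5⟩, h4⟩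

theorem finite_bas (d : J → ι → ℤ) (a : ι → ℝ) : {t | Bas d a t}.Finite :=
  Set.Finite.of_finite_image (f := fun t : J → ℝ => {j | t j = 0}) (Set.toFinite _)
    fun t h t' h' e => (h.eq h'.1 fun j hj => (Set.ext_iff.1 e j).1 hj).symm

theorem Fe.min (h : Fe d a t) {w : J → ℝ} (hw : ∀ j, 0 ≤ w j) :
    ∃ t₀, Bas d a t₀ ∧ ∀ t, Fe d a t → ∑ j, t₀ j * w j ≤ ∑ j, t j * w j := by
  obtain ⟨t₀, h1, h2⟩ := Set.exists_min_image _ (fun t => ∑ j, t j * w j) (finite_bas d a)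
    ((h.bas hw).imp fun _ h => h.1)
  exact ⟨t₀, h1, fun t ht => let ⟨t', a1, a2⟩ := ht.bas hw; (h2 t' a1).trans a2⟩

theorem Walls.split (h : Walls d H) (ha : a ∈ cell H z) (hb : b ∈ cell H z) (ht : Fe d (a + b) t)
    {w : J → ℝ} (hw : ∀ j, 0 ≤ w j) : ∃ t₁ t₂, Fe d a t₁ ∧ Fe d b t₂ ∧
      ∑ j, t₁ j * w j + ∑ j, t₂ j * w j ≤ ∑ j, t j * w j := by
  obtain ⟨t', h1, h2⟩ := ht.bas hw
  obtain ⟨t₁, a1, a2⟩ := h.fe h1.1 (mem_cell_add ha hb)
  obtain ⟨t₂, b1, b2⟩ := h.fe h1.1 (add_comm b a ▸ mem_cell_add hb ha)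
  refine ⟨t₁, t₂, a1, b1, le_trans (le_of_eq ?_) h2⟩
  rw [← h1.eq (a1.add b1) fun j hj => by simp [a2 j hj, b2 j hj]]
  simp only [Pi.add_apply, add_mul, sum_add_distrib]

theorem Bas.int {e : ι → ℤ} (h : Bas d (toR e) t) :
    ∃ m : ℕ, 1 ≤ m ∧ ∃ n : J → ℕ, ∀ j, (n j : ℝ) = m * t j := by
  obtain ⟨m, hm, h7⟩ := exists_nsmul_mem d (a := e) h.1.1 fun j => by
    simpa using (congrFun h.1.2 j).symm
  obtain ⟨n, h8, h9⟩ := mem_closure_image.1 h7
  have hm' : (0 : ℝ) < m := by exact_mod_cast hm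
  refine ⟨m, hm, n, fun j => ?_⟩
  have := h.eq (t' := fun j => n j / m) ⟨fun j => by positivity, funext fun i => by
    have := congrArg (Int.cast : ℤ → ℝ) (congrFun h9 i)
    simp only [Finset.sum_apply, Pi.smul_apply] at this
    simp only [nsmul_eq_mul, Int.cast_mul, Int.cast_natCast, Int.cast_sum] at this
    simp only [Finset.sum_apply, Pi.smul_apply, toR_apply, smul_eq_mul, div_mul_eq_mul_div,
      ← sum_div, ← this]
    field_simp⟩ fun j hj => by simp [h8 j (by simpa using hj)]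
  rw [← congrFun this j]
  field_simp

/-- finitely many integral points compute all the minima -/
theorem lp_int {e : ι → ℤ} (h : Fe d (toR e) t) : ∃ k : ℕ, 1 ≤ k ∧ ∃ S : Finset (J → ℕ),
    (∀ n ∈ S, Fe d ((k : ℝ) • toR e) fun j => n j) ∧ ∀ w : J → ℝ, (∀ j, 0 ≤ w j) → ∃ n ∈ S,
      ∀ t, Fe d (toR e) t → ∑ j, n j * w j ≤ k * ∑ j, t j * w j := by
  classical
  have := (finite_bas d (toR e)).fintype
  choose m h1 n h2 using fun t : {t | Bas d (toR e) t} => t.2.int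
  choose c hc using fun t => dvd_prod_of_mem m (mem_univ t)
  have k : ∀ t j, ((c t * n t j : ℕ) : ℝ) = (∏ t, m t : ℕ) * t.1 j := fun t j => by
    rw [hc t]; push_cast; rw [h2]; ring
  refine ⟨∏ t, m t, one_le_prod' fun t _ => h1 t, univ.image fun t j => c t * n t j,
    fun v hv => ?_, fun w hw => ?_⟩
  · obtain ⟨t, -, rfl⟩ := Finset.mem_image.1 hv
    exact (funext (k t)).symm ▸ t.2.1.smul (Nat.cast_nonneg _)
  · obtain ⟨t₀, a1, a2⟩ := h.min hw
    refine ⟨_, mem_image_of_mem _ (mem_univ ⟨t₀, a1⟩), fun t ht => ?_⟩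
    simp only [k, mul_assoc, ← mul_sum]
    exact mul_le_mul_of_nonneg_left (a2 t ht) (Nat.cast_nonneg _)

end lp

end Vale.Agent.P287D
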