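import Vale.Agent.P287D.St
import Vale.Agent.P287D.Va.Cone
import Vale.Agent.P287D.Z.Lp
import Vale.Agent.P277Z.Gr.Defs

/-!
# P287D: the fixed part `sig` and the mobile part `mob`
-/

set_option linter.all false

open Set
open P277Z.Gor

noncomputable section

namespace Vale.Agent.P287D

variable {K : Type} [Field K] [Algebra ℂ K] {β γ G G' : BD K} {f : K} {P : Pl K} {c : ℝ}

/-- the fixed part: the infimum of the members of the real linear system -/
def sig (β : BD K) : BD K := fun P => sInf {r | ∃ G, Rep β G ∧ G P = r}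

/-- the mobile part -/
def mob (β : BD K) : BD K := β - sig β

theorem Smp.rep_at (h : Smp β) (P : Pl K) : ∃ G, Rep β G ∧ G P = 0 :=
  let ⟨G, a, b⟩ := h.exists_rep (finite_singleton P)
  ⟨G, a, b P rfl⟩

theorem sig_nonneg (β : BD K) : 0 ≤ sig β := fun P =>
  Real.sInf_nonneg fun _ ⟨_, h, e⟩ => e ▸ h.1 P

theorem Rep.sig_le (h : Rep β G) : sig β ≤ G := fun P =>
  csInf_le ⟨0, fun _ ⟨_, h, e⟩ => e ▸ h.1 P⟩ ⟨G, h, rfl⟩

theorem Eff.le_sig (h : Eff β) (k : ∀ G, Rep β G → c ≤ G P) : c ≤ sig β P :=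
  le_csInf (let ⟨G, a⟩ := h; ⟨_, G, a, rfl⟩) fun _ ⟨G, a, e⟩ => e ▸ k G a

theorem sig_eq (h : Rep β G) (k : ∀ G', Rep β G' → G P ≤ G' P) : sig β P = G P :=
  le_antisymm (h.sig_le P) (Eff.le_sig ⟨G, h⟩ k)

theorem sig_of_not (h : ¬ Eff β) : sig β = 0 := funext fun P => by
  have : {r | ∃ G, Rep β G ∧ G P = r} = ∅ :=
    eq_empty_of_forall_notMem fun _ ⟨G, a, _⟩ => h ⟨G, a⟩
  simp [sig, this]

theorem sig_congr (h : β - γ ∈ Prn K) : sig β = sig γ := by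
  have : ∀ G, Rep β G ↔ Rep γ G := fun G =>
    ⟨fun a => a.congr (by simpa using neg_mem h), fun a => a.congr h⟩
  simp only [funext_iff, sig, this, implies_true]

theorem mob_congr (h : β - γ ∈ Prn K) : mob β = mob γ + (β - γ) := by
  rw [mob, mob, sig_congr h]; abel

theorem Smp.sig_eq (h : Smp β) : sig β = 0 := funext fun P =>
  let ⟨_, a, b⟩ := h.rep_at P
  le_antisymm ((a.sig_le P).trans b.le) (sig_nonneg β P)

theorem Smp.mob_eq (h : Smp β) : mob β = β := by rw [mob, h.sig_eq, sub_zero]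

@[simp] theorem sig_zero : sig (0 : BD K) = 0 := Smp.zero.sig_eq

@[simp] theorem mob_zero : mob (0 : BD K) = 0 := Smp.zero.mob_eq

theorem sig_add_le (h : Eff β) (k : Eff γ) : sig (β + γ) ≤ sig β + sig γ := fun P => by
  have : ∀ G', Rep γ G' → sig (β + γ) P - G' P ≤ sig β P := fun G' b =>
    h.le_sig fun G a => sub_le_iff_le_add.2 ((Rep.add a b).sig_le P)
  have := k.le_sig (c := sig (β + γ) P - sig β P) (P := P) fun G b => by linarith [this G b]
  simp only [Pi.add_apply]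
  linarith

theorem sig_add_nonneg (h : Eff β) (k : 0 ≤ G) : sig (β + G) ≤ sig β + G :=
  (sig_add_le h ⟨_, Rep.refl k⟩).trans (add_le_add le_rfl (Rep.refl k).sig_le)

theorem sig_add_smp (h : Eff β) (k : Smp γ) : sig (β + γ) ≤ sig β := fun P => by
  obtain ⟨G, a, b⟩ := k.rep_at P
  simpa [k.sig_eq] using sig_add_le h ⟨G, a⟩ P

theorem sig_smul (β : BD K) (hc : 0 ≤ c) : sig (c • β) = c • sig β := by
  rcases hc.eq_or_lt with rfl | hc'
  · simp
  have key : ∀ (β : BD K) (c : ℝ), 0 < c → Eff β → sig (c • β) ≤ c • sig β := fun β c hc h P => by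
    have := h.le_sig (c := sig (c • β) P / c) (P := P) fun G a =>
      (div_le_iff₀' hc).2 ((Rep.smul a hc.le).sig_le P)
    exact (div_le_iff₀' hc).1 this
  by_cases h : Eff β
  · refine le_antisymm (key β c hc' h) ?_
    have := smul_le_smul_of_nonneg_left (key _ c⁻¹ (inv_pos.2 hc') (Eff.smul h hc)) hc
    rwa [inv_smul_smul₀ hc'.ne', smul_inv_smul₀ hc'.ne'] at this
  · rw [sig_of_not h, sig_of_not fun k => h ?_, smul_zero]
    simpa [inv_smul_smul₀ hc'.ne'] using Eff.smul k (inv_nonneg.2 hc)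

theorem mob_smul (β : BD K) (hc : 0 ≤ c) : mob (c • β) = c • mob β := by
  rw [mob, mob, sig_smul β hc, smul_sub]

theorem mob_add_sig (β : BD K) : mob β + sig β = β := sub_add_cancel _ _

theorem mob_le (β : BD K) : mob β ≤ β := sub_le_self _ (sig_nonneg β)

theorem Rep.to_mob (h : Rep β G) : Rep (mob β) (G - sig β) :=
  ⟨sub_nonneg.2 h.sig_le, by rw [mob, sub_sub_sub_cancel_right]; exact h.2⟩

theorem Rep.of_mob (h : Rep (mob β) G) : Rep β (G + sig β) :=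
  mob_add_sig β ▸ (by
    have := Rep.add h (Rep.refl (sig_nonneg β))
    simpa only [mob_add_sig] using this)

theorem eff_mob : Eff (mob β) ↔ Eff β :=
  ⟨fun ⟨_, h⟩ => ⟨_, h.of_mob⟩, fun ⟨_, h⟩ => ⟨_, h.to_mob⟩⟩

theorem sec_mob : Sec (mob β) f ↔ Sec β f := by
  refine ⟨fun h => h.mono (mob_le β), fun h => or_iff_not_imp_left.2 fun h0 => ?_⟩
  rw [mob, ← add_sub_assoc]
  exact (Sec.rep h h0).to_mob.1

theorem H0_mob (β : BD K) : H0 (mob β) = H0 β := by simp only [H0, sec_mob]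

theorem sig_mob (β : BD K) : sig (mob β) = 0 := by
  by_cases h : Eff β
  · refine le_antisymm (fun P => ?_) (sig_nonneg _)
    have := h.le_sig (c := sig (mob β) P + sig β P) (P := P) fun G a =>
      le_sub_iff_add_le.1 (a.to_mob.sig_le P)
    simpa using this
  · exact sig_of_not (mt eff_mob.1 h)

/-- removing a part of the fixed part -/
theorem sig_sub (h : Eff β) (h0 : 0 ≤ G) (k : G ≤ sig β) : sig (β - G) = sig β - G := by
  have e : ∀ G', Rep β G' → Rep (β - G) (G' - G) := fun G' a =>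
    ⟨sub_nonneg.2 (k.trans a.sig_le), by rw [sub_sub_sub_cancel_right]; exact a.2⟩
  have := sig_add_nonneg (let ⟨_, a⟩ := h; ⟨_, e _ a⟩) h0
  rw [sub_add_cancel] at this
  refine le_antisymm (fun P => le_sub_iff_add_le.2 ?_) (sub_le_iff_le_add.2 this)
  exact h.le_sig fun G' a => le_sub_iff_add_le.1 ((e _ a).sig_le P)

theorem ZD.eff {N : BD K} (h : ZD β N) (P : Pl K) : ∃ G, Rep β G ∧ G P = N P := by
  obtain ⟨G, a, b⟩ := h.smp.rep_at P
  exact ⟨G + N, by simpa using Rep.add a (Rep.refl h.nn), by simp [b]⟩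

theorem ZD.sig_eq {N : BD K} (h : ZD β N) : sig β = N := funext fun P =>
  let ⟨G, a, b⟩ := h.eff P
  b ▸ _root_.Vale.Agent.P287D.sig_eq a fun G' e => b ▸ h.fix G' e P

theorem zd_sig (h : Smp (mob β)) : ZD β (sig β) := ⟨sig_nonneg β, h, fun _ a => a.sig_le⟩

theorem lc_add {ι : Type} [Fintype ι] (D : ι → BD K) (a b : ι → ℝ) :
    lc D (a + b) = lc D a + lc D b := by simp [lc, add_smul, Finset.sum_add_distrib]

theorem lc_smul {ι : Type} [Fintype ι] (D : ι → BD K) (c : ℝ) (a : ι → ℝ) :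
    lc D (c • a) = c • lc D a := by simp [lc, mul_smul, Finset.smul_sum]

/-- `lc` as a linear map -/
def lcL {ι : Type} [Fintype ι] (D : ι → BD K) : (ι → ℝ) →ₗ[ℝ] BD K :=
  ⟨⟨lc D, lc_add D⟩, lc_smul D⟩

theorem lc_zero {ι : Type} [Fintype ι] (D : ι → BD K) : lc D 0 = 0 := (lcL D).map_zero

theorem lc_sum {ι : Type} [Fintype ι] (D : ι → BD K) {α : Type*} (s : Finset α) (a : α → ι → ℝ) :
    lc D (∑ v ∈ s, a v) = ∑ v ∈ s, lc D (a v) := map_sum (lcL D) a s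

/-- `T` is the set of the prime divisors of a model to which the `D i` descend -/
structure Det {ι : Type} [Fintype ι] (T : Set (Pl K)) (D : ι → BD K) : Prop where
  fin : ∀ f : K, {P | P ∈ T ∧ dv f P ≠ 0}.Finite
  sup : ∀ i, {P | P ∈ T ∧ D i P ≠ 0}.Finite
  rat : ∀ i, ∀ P ∈ T, ∃ q : ℚ, D i P = q
  pos : ∀ a, 0 ≤ a → ∀ Z ∈ Prn K, (∀ P ∈ T, 0 ≤ (lc D a + Z) P) → 0 ≤ lc D a + Z

/-- the Zariski decompositions of the `lc D a` are linear on the cells of the walls `H` -/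
structure Zar {ι : Type} [Fintype ι] (D : ι → BD K) (H : Finset (ι → ℤ)) : Prop where
  crd : ∀ z, 0 ≤ z → ∀ a ∈ cell H z, 0 ≤ a
  eff : ∀ z, 0 ≤ z → Eff (lc D z) → ∀ a ∈ cell H z, Eff (lc D a)
  add : ∀ z, 0 ≤ z → Eff (lc D z) → ∀ a ∈ cell H z, ∀ b ∈ cell H z,
    sig (lc D (a + b)) = sig (lc D a) + sig (lc D b)
  int : ∀ e : ι → ℤ, 0 ≤ toR e → Eff (lc D (toR e)) →
    ∃ (k : ℕ) (s : Finset K), 0 < k ∧ (k : ℝ) • mob (lc D (toR e)) = mx s

/-- **FGU**: finite generation of adjoint rings -/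
def FGU : Prop := ForS fun n K _ _ => ∀ (ι : Type) [Fintype ι] (Λ : BD K) (D Γ : ι → BD K),
  Smp Λ → Big Λ → (∀ i, CarQ (D i) ∧ Dsc Λ (D i) ∧ Γ i ∈ Car K ∧ Klt (n + 1) (Γ i) ∧
    Bdy n Λ (Γ i) ∧ Nef (D i - Γ i) ∧ Big (D i - Γ i)) →
  ∃ m : ℕ, 0 < m ∧
    P277Z.Gr.FG (fun a : ι → ℕ => H0 ((m : ℝ) • lc D fun i => (a i : ℝ))) univ

/-- **ZARH**: the row `ZAR` with walls -/
def ZARH : Prop := ForS fun n K _ _ => ∀ (ι : Type) [Fintype ι] (Λ : BD K) (D Γ : ι → BD K),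
  Smp Λ → Big Λ → (∀ i, CarQ (D i) ∧ Dsc Λ (D i) ∧ Γ i ∈ Car K ∧ Klt (n + 1) (Γ i) ∧
    Bdy n Λ (Γ i) ∧ Nef (D i - Γ i) ∧ Big (D i - Γ i)) →
  (∃ H, Zar D H) ∧ ∀ a, 0 ≤ a → Psef (lc D a) → Eff (lc D a)

end Vale.Agent.P287D
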